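import Vale.Agent.P058.Nec

namespace Vale.Agent.Results.P058.Characterization

open Vale.Agent.P058

theorem result :
    (∀ (d : ℕ) (A : Finset (E d)), A.Nonempty → (IsRamsey A ↔ TensorCond A)) ∧
    (∀ (d : ℕ) (A : Finset (E d)), A.Nonempty → IsSubtransitive A → IsRamsey A) ∧
    (∃ A : Finset (E 2), A.Nonempty ∧ IsRamsey A ∧ ¬ IsSubtransitive A) :=
  ⟨fun _ _ hA => ⟨tensor_of_ramsey hA, ramsey_of_tensor hA⟩,
    fun _ _ hA h => ramsey_of_tensor hA (tensor_of_sub hA h), exists_kite⟩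

end Vale.Agent.Results.P058.Characterization
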